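import Vale.Agent.P284.H894.W.Spec2
import Vale.Agent.P284.H451.KLS
import Mathlib.Analysis.Calculus.DifferentialForm.Basic

/-!
# P284, theorem O (projective manifolds dominated by `ℂᴺ`): common language of the blueprint

Tensors on the covering space `E` of `X` are functions of the point `y : E` and of a chart `e` of `X` at
`p y`. `SigmaStmt` is the geometric theorem which is used three times (for closed forms, for the fibres of
the quotient tori, and for the relative Hilbert valued form).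
-/

open scoped Manifold ContDiff Topology Pointwise ComplexConjugate ComplexOrder
open Filter Set Metric MeasureTheory

noncomputable section

namespace Vale.Agent.P284.H478

open Vale.Agent.P272.K Vale.Agent.P284.H248 Vale.Agent.P284.H894 Vale.Agent.P284.H894.G
  Vale.Agent.P284.H894.V Vale.Agent.P284.H894.W

section
variable {n : ℕ} {X : Type} [TopologicalSpace X]

/-- The change of coordinates from the chart `e` to the chart `e'`. -/
def cc (e e' : Chart n X) : Cm n → Cm n := fun z => e' (e.symm z)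

end

section
variable {n : ℕ} {X : Type} [TopologicalSpace X] [ChartedSpace (Cm n) X]
  {E : Type} [TopologicalSpace E] {Γ : Type} [Group Γ] [MulAction Γ E]

/-- `Φ : ℂᴺ → X` is holomorphic, and a submersion somewhere. -/
structure Dom (n : ℕ) {N : ℕ} {X : Type} [TopologicalSpace X] [ChartedSpace (Cm n) X]
    (Φ : Cm N → X) : Prop where
  holo : ContMDiff 𝓘(ℂ, Cm N) 𝓘(ℂ, Cm n) ω Φ
  rank : ∃ ζ, Function.Surjective (mfderiv 𝓘(ℂ, Cm N) 𝓘(ℂ, Cm n) Φ ζ)

/-- `F : E → ℂ^q` is the lift of a holomorphic map from `X` to the torus `ℂ^q / c(Γ)`, which is a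
submersion somewhere. -/
structure Tor (p : E → X) (w : Chart n X → Cm n → Matrix (Fin n) (Fin n) ℂ) {q : ℕ}
    (F : E → Cm q) (c : Γ → Cm q) : Prop where
  hol : ∃ B, HolB p w F B
  equiv : ∀ g y, F (g • y) = F y + c g
  add : ∀ g h, c (g * h) = c g + c h
  disc : ∀ R : ℝ, {v | (∃ g, c g = v) ∧ ‖v‖ ≤ R}.Finite
  span : Submodule.span ℝ (Set.range c) = ⊤
  reg : ∃ y, Reg (n := n) p F y

/-- A holomorphic section over `E` of the `m`-th power of `Ω^R` with values in the Hilbert space `H`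
(a function of the frame `ξ` of `R` tangent vectors, of type `det ^ m`), whose norm is invariant
under `Γ`. -/
structure HForm (Γ : Type) [Group Γ] [MulAction Γ E] (p : E → X) (R m : ℕ) (H : Type)
    [NormedAddCommGroup H] [InnerProductSpace ℂ H] where
  v : E → Chart n X → (Fin R → Cm n) → H
  holo : ∀ y e, At e (p y) → ∃ f : Cm n → (Fin R → Cm n) → H,
    (∀ ξ, AnalyticAt ℂ (fun a : Cm n × (Fin R → Cm n) => f a.1 a.2) (e (p y), ξ)) ∧
    ∀ᶠ y' in 𝓝 y, v y' e = f (e (p y'))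
  change : ∀ y e e', At e (p y) → At e' (p y) → ∀ ξ,
    v y e ξ = v y e' fun i => fderiv ℂ (cc e e') (e (p y)) (ξ i)
  hom : ∀ y e, At e (p y) → ∀ (A : Matrix (Fin R) (Fin R) ℂ) ξ,
    v y e (fun i => ∑ j, A i j • ξ j) = A.det ^ m • v y e ξ
  inv : ∀ (g : Γ) y e, At e (p y) → ∀ ξ, ‖v (g • y) e ξ‖ = ‖v y e ξ‖

/-- Near the good point `y` the section is `(det db)^m γ(b)`, `b` a submersion to `ℂ^R`, `[γ]` an
immersion. -/
def HForm.GoodAt {p : E → X} {R m : ℕ} {H : Type} [NormedAddCommGroup H] [InnerProductSpace ℂ H]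
    (V : HForm (n := n) Γ p R m H) (y : E) : Prop :=
  ∃ (e : Chart n X) (b : Cm n → Cm R) (γ : Cm R → H), At e (p y) ∧ AnalyticAt ℂ b (e (p y)) ∧
    Function.Surjective (fderiv ℂ b (e (p y))) ∧ AnalyticAt ℂ γ (b (e (p y))) ∧
    γ (b (e (p y))) ≠ 0 ∧
    (∀ (η : Cm R) (s : ℂ), fderiv ℂ γ (b (e (p y))) η = s • γ (b (e (p y))) → η = 0) ∧
    ∀ᶠ y' in 𝓝 y, ∀ ξ, V.v y' e ξ =
      (Matrix.of fun i j => fderiv ℂ b (e (p y')) (ξ i) j).det ^ m • γ (b (e (p y')))

/-- A holomorphic closed `(q+1)`-form `S = dF_1 ∧ … ∧ dF_q ∧ Θ` on `E` with values in the unitary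
representation `π` of `Γ`, equivariant. -/
structure RelForm {q : ℕ} (p : E → X) (F : E → Cm q) (W : Type) [NormedAddCommGroup W]
    [InnerProductSpace ℂ W] (π : Γ →* (W ≃ₗᵢ[ℂ] W)) where
  S : E → Chart n X → Cm n [⋀^Fin (q + 1)]→L[ℂ] W
  holo : ∀ y e, At e (p y) → ∃ f : Cm n → Cm n [⋀^Fin (q + 1)]→L[ℂ] W,
    AnalyticAt ℂ f (e (p y)) ∧ (∀ᶠ y' in 𝓝 y, S y' e = f (e (p y'))) ∧
    ∀ᶠ z in 𝓝 (e (p y)), extDeriv f z = 0
  change : ∀ y e e', At e (p y) → At e' (p y) →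
    S y e = (S y e').compContinuousLinearMap (fderiv ℂ (cc e e') (e (p y)))
  equiv : ∀ (g : Γ) y e, At e (p y) → ∀ ξ, S (g • y) e ξ = π g (S y e ξ)
  /-- `S = dF_1 ∧ … ∧ dF_q ∧ Θ` -/
  rel : ∀ y e, At e (p y) → ∀ f : Cm n → Cm q, (∀ᶠ y' in 𝓝 y, F y' = f (e (p y'))) →
    ∀ (ξ : Fin (q + 1) → Cm n) (i j : Fin (q + 1)), i ≠ j →
    fderiv ℂ f (e (p y)) (ξ i) = 0 → fderiv ℂ f (e (p y)) (ξ j) = 0 → S y e ξ = 0

/-- `Θ (v)` for `v` in the kernel of `dF` and the chosen vectors `u i`, `dF (u i) = e_i`: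
`Θ v = S (u_1, …, u_q, v)`. -/
def RelForm.Th {q : ℕ} {p : E → X} {F : E → Cm q} {W : Type} [NormedAddCommGroup W]
    [InnerProductSpace ℂ W] {π : Γ →* (W ≃ₗᵢ[ℂ] W)} (S : RelForm (n := n) p F W π) (y : E)
    (e : Chart n X) (u : Fin q → Cm n) (v : Cm n) : W :=
  S.S y e (Fin.snoc (α := fun _ => Cm n) u v)

end

/-- **Σ**: a dominated projective manifold has no `Γ`-invariant Hilbert valued natural form of full
rank. -/
def SigmaStmt : Prop :=
  ∀ (n N : ℕ) (X : Type) [TopologicalSpace X] [T2Space X] [CompactSpace X] [ConnectedSpace X]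
    [ChartedSpace (Cm n) X] [IsManifold 𝓘(ℂ, Cm n) ω X] (L : LineBundle n X), Positive L →
    ∀ (Φ : Cm N → X), Dom n Φ →
    ∀ (E Γ : Type) [TopologicalSpace E] [ConnectedSpace E] [Group Γ] [MulAction Γ E] (p : E → X),
    IsGalois Γ p → ∀ (R m : ℕ), 1 ≤ R → 1 ≤ m →
    ∀ (H : Type) [NormedAddCommGroup H] [InnerProductSpace ℂ H] [CompleteSpace H]
      (V : HForm (n := n) Γ p R m H), Dense {y | V.GoodAt y} → False

/-- **MF**: the generic fibres of the torus quotients of a dominated projective manifold are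
connected. -/
def MFStmt : Prop :=
  ∀ (n N : ℕ) (X : Type) [TopologicalSpace X] [T2Space X] [CompactSpace X] [ConnectedSpace X]
    [ChartedSpace (Cm n) X] [IsManifold 𝓘(ℂ, Cm n) ω X] (L : LineBundle n X), Positive L →
    ∀ (w : Chart n X → Cm n → Matrix (Fin n) (Fin n) ℂ), IsKahler w →
    ∀ (Φ : Cm N → X), Dom n Φ →
    ∀ (E Γ : Type) [TopologicalSpace E] [ConnectedSpace E] [Group Γ] [MulAction Γ E] (p : E → X),
    IsGalois Γ p → ∀ (q : ℕ) (F : E → Cm q) (c : Γ → Cm q), Tor p w F c →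
    ∃ T : Set (Cm q), IsClosed T ∧ volume T = 0 ∧ IsPreconnected Tᶜ ∧
      (∀ t ∈ T, ∀ g, t + c g ∈ T) ∧
      ∀ t ∉ T, (∀ y, F y = t → Reg (n := n) p F y) ∧ IsConnected (F ⁻¹' {t})

end Vale.Agent.P284.H478
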