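import Vale.Agent.P284.H478.FinS
import Vale.Agent.P284.H213.Q.FinE
import Vale.Agent.P284.H174.AlbD
import Vale.Agent.P284.H213.Grp.CovP
import Vale.Agent.P284.H894.AE.ClT
import Vale.Agent.P284.H212.Pos
import Vale.Agent.P284.H10.S4d

/-!
# P284 (helper478): from `MainPiQ` to the final statement
-/

open scoped Manifold ContDiff Topology LinearAlgebra.Projectivization
open Filter Set Metric MeasureTheory Module

noncomputable section

namespace Vale.Agent.P284.H478

open Vale.Agent.P272.K Vale.Agent.P284.H248 Vale.Agent.P284.H894 Vale.Agent.P284.H894.G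
  Vale.Agent.P284.H894.F Vale.Agent.P284.H894.AE Vale.Agent.P284.H998

section
variable (n : ℕ) {X : Type} [TopologicalSpace X] [ChartedSpace (Cm n) X]

variable {n}

theorem exists_pj [Nonempty X] [IsManifold 𝓘(ℂ, Cm n) ω X] (h : Embedded n X) :
    ∃ (ι : Type) (_ : Fintype ι), Nonempty (PJ n X ι) := by
  obtain ⟨k, Ψ, hinj, hΨ⟩ := h
  obtain ⟨D⟩ := Vale.Agent.P299.H223.projData_of hinj hΨ
  exact ⟨_, inferInstance, ⟨Vale.Agent.P284.H212.pjOf D⟩⟩

theorem dom_of_dominable [IsManifold 𝓘(ℂ, Cm n) ω X] (h : Dense {y : X | Dominable n y}) :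
    Vale.Agent.P284.H221.Dom n n X := by
  intro U hU hne
  obtain ⟨y, ⟨Φ, hΦ, h0, hb⟩, hy⟩ := h.exists_mem_open hU hne
  refine ⟨Φ, hΦ, 0, by rwa [h0], chartAt (Cm n) (Φ 0), ?_, ?_⟩
  · exact ⟨chart_mem_atlas _ _, mem_chart_source _ _⟩
  · exact (H885.surj_mfderiv_iff ((hΦ 0).mdifferentiableAt (by simp))
      ⟨chart_mem_atlas _ _, mem_chart_source _ _⟩).1 hb.2

theorem span_of_dominable [IsManifold 𝓘(ℂ, Cm n) ω X] {y : X} (h : Dominable n y) :
    Submodule.span ℂ (velocities n y) = ⊤ := by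
  obtain ⟨Φ, hΦ, rfl, hb⟩ := h
  have hAt : At (chartAt (Cm n) (Φ 0)) (Φ 0) := ⟨chart_mem_atlas _ _, mem_chart_source _ _⟩
  have hs := (H885.surj_mfderiv_iff ((hΦ 0).mdifferentiableAt (by simp)) hAt).1 hb.2
  rw [eq_top_iff]
  intro v _
  refine Submodule.subset_span ?_
  obtain ⟨u, hu⟩ := hs v
  refine ⟨fun s : ℂ => Φ (s • u), ?_, by simp, ?_⟩
  · refine hΦ.comp ?_
    rw [contMDiff_iff_contDiff]
    exact contDiff_id.smul contDiff_const
  · intro k
    have han : AnalyticAt ℂ (fun z => chartAt (Cm n) (Φ 0) (Φ z)) 0 :=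
      H221.chart_comp_analytic hΦ hAt
    have h1 : HasFDerivAt (fun z => chartAt (Cm n) (Φ 0) (Φ z))
        (fderiv ℂ (fun z => chartAt (Cm n) (Φ 0) (Φ z)) 0) 0 :=
      han.differentiableAt.hasFDerivAt
    have h2 : HasDerivAt (fun s : ℂ => s • u) u 0 := by
      simpa using (hasDerivAt_id (0 : ℂ)).smul_const u
    have h3 : HasDerivAt (fun s : ℂ => chartAt (Cm n) (Φ 0) (Φ (s • u)))
        (fderiv ℂ (fun z => chartAt (Cm n) (Φ 0) (Φ z)) 0 u) 0 := by
      have h1' : HasFDerivAt (fun z => chartAt (Cm n) (Φ 0) (Φ z))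
        (fderiv ℂ (fun z => chartAt (Cm n) (Φ 0) (Φ z)) 0) ((0 : ℂ) • u) := by
        rw [zero_smul]; exact h1
      exact h1'.comp_hasDerivAt (0 : ℂ) h2
    have h4 := (hasDerivAt_pi.1 h3) k
    rw [hu] at h4
    exact h4.deriv

theorem spanned_of_null [IsManifold 𝓘(ℂ, Cm n) ω X] (h : NullSet n {y : X | ¬ Dominable n y})
    (x : X) : AECurveSpanned n x := by
  refine ⟨univ, mem_univ _, isOpen_univ, ?_, NullSet.mono h ?_⟩
  · rw [piImage_univ]
    infer_instance
  · rintro y ⟨-, hy⟩ h1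
    exact hy (span_of_dominable h1)

/-- a map with image of full measure has maximal rank somewhere (Sard) -/
theorem exists_rank {N : ℕ} [IsManifold 𝓘(ℂ, Cm n) ω X] {Φ : Cm N → X}
    (hΦ : ContMDiff 𝓘(ℂ, Cm N) 𝓘(ℂ, Cm n) ω Φ) (hs : NullSet n (range Φ)ᶜ) :
    ∃ ζ, Function.Surjective (diffAt (n := n) Φ ζ) := by
  change ∃ ζ, Function.Surjective (mfderiv 𝓘(ℂ, Cm N) 𝓘(ℂ, Cm n) Φ ζ)
  by_contra hcon
  push Not at hcon
  rcases Nat.eq_zero_or_pos n with hn | hn
  · subst hn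
    refine hcon 0 fun v => ⟨0, ?_⟩
    exact Subsingleton.elim (α := Cm 0) _ _
  set e : Chart n X := chartAt (Cm n) (Φ 0) with he
  have heA : e ∈ atlas (Cm n) X := chart_mem_atlas _ _
  set U : Set (Cm N) := Φ ⁻¹' e.source with hUdef
  have hU : IsOpen U := e.open_source.preimage hΦ.continuous
  have hAt : ∀ ζ ∈ U, At e (Φ ζ) := fun ζ hζ => ⟨heA, hζ⟩
  have hd : DifferentiableOn ℂ (fun ζ => e (Φ ζ)) U := fun ζ hζ =>
    (H221.chart_comp_analytic hΦ (hAt ζ hζ)).differentiableAt.differentiableWithinAt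
  have h1 := H10.img N (Cm N) (by simp) (Cm n) (fun ζ => e (Φ ζ)) U hU hd (n - 1)
  have h2 : {ζ ∈ U | finrank ℂ (LinearMap.range
      (fderiv ℂ (fun ζ => e (Φ ζ)) ζ : Cm N →ₗ[ℂ] Cm n)) ≤ n - 1} = U := by
    ext ζ
    refine ⟨fun h => h.1, fun h => ⟨h, ?_⟩⟩
    have h3 : ¬ Function.Surjective (fderiv ℂ (fun ζ => e (Φ ζ)) ζ) := by
      rw [← H885.surj_mfderiv_iff ((hΦ ζ).mdifferentiableAt (by simp)) (hAt ζ h)]
      exact hcon ζ
    have h4 : LinearMap.range (fderiv ℂ (fun ζ => e (Φ ζ)) ζ : Cm N →ₗ[ℂ] Cm n) < ⊤ := by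
      rw [lt_top_iff_ne_top]
      intro h5
      exact h3 (LinearMap.range_eq_top.1 h5)
    have h6 := Submodule.finrank_lt h4.ne
    rw [finrank_fintype_fun_eq_card, Fintype.card_fin] at h6
    omega
  rw [h2] at h1
  have h3 : (Measure.addHaar : Measure (Cm n)) ((fun ζ => e (Φ ζ)) '' U) = 0 :=
    H10.null_of_cov h1 (by simp; omega)
  have h3' : volume ((fun ζ => e (Φ ζ)) '' U) = 0 :=
    (Measure.absolutelyContinuous_isAddHaarMeasure volume Measure.addHaar) h3
  have h4 := hs e heA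
  have h5 : e.target ⊆ (fun ζ => e (Φ ζ)) '' U ∪ e '' ((range Φ)ᶜ ∩ e.source) := by
    intro z hz
    by_cases hr : e.symm z ∈ range Φ
    · obtain ⟨ζ, hζ⟩ := hr
      left
      refine ⟨ζ, ?_, ?_⟩
      · change Φ ζ ∈ e.source
        rw [hζ]
        exact e.map_target hz
      · change e (Φ ζ) = z
        rw [hζ, e.right_inv hz]
    · right
      exact ⟨e.symm z, ⟨hr, e.map_target hz⟩, e.right_inv hz⟩
  have h6 : volume e.target = 0 := measure_mono_null h5 (measure_union_null h3' h4)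
  exact (e.open_target.measure_pos volume ⟨e (Φ 0), e.map_source (mem_chart_source _ _)⟩).ne' h6

end

section cls

open Vale.Agent.P284.H213.Q

/-- the fundamental group, from its amenable quotients -/
theorem pi_of {D : Cls} (hM : MainPiQ D) {n : ℕ} {X : Type} [TopologicalSpace X] [T2Space X]
    [CompactSpace X] [ConnectedSpace X] [ChartedSpace (Cm n) X] [IsManifold 𝓘(ℂ, Cm n) ω X]
    (hX : Embedded n X) (hD : D n X) (x : X) :
    (∀ (Q : Type) [Group Q] (f : FundamentalGroup X x →* Q), Function.Surjective f → Folner Q →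
      VirtAbelianRank Q (2 * n)) ∧
    ((Folner (FundamentalGroup X x) ∨ SubexpGrowth (FundamentalGroup X x) ∨
      AECurveConnected n x ∨ AECurveSpanned n x) →
        VirtAbelianRank (FundamentalGroup X x) (2 * n)) := by
  obtain ⟨ι, hι, ⟨J⟩⟩ := exists_pj hX
  have hw := H212.pjFS_isKahler J
  have h1 := hM n X ι J hD _ hw x
  refine ⟨h1, fun h => ?_⟩
  have h2 : Folner (FundamentalGroup X x) := by
    rcases h with h | h | h
    · exact h
    · exact h.folner
    · exact (growth_or tanConcl hw x h).folner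
  exact h1 _ (MonoidHom.id _) Function.surjective_id h2

end cls

theorem dominated_iff {n : ℕ} {X : Type} [TopologicalSpace X] [ChartedSpace (Cm n) X]
    [IsManifold 𝓘(ℂ, Cm n) ω X] : Dominated n X ↔ ∃ N, H174.GD.DomW N n X := by
  constructor
  · rintro ⟨N, Φ, hΦ, ζ, hζ⟩
    refine ⟨N, Φ, hΦ, ζ, chartAt (Cm n) (Φ ζ), ⟨chart_mem_atlas _ _, mem_chart_source _ _⟩, ?_⟩
    exact (H885.surj_mfderiv_iff ((hΦ ζ).mdifferentiableAt (by simp))
      ⟨chart_mem_atlas _ _, mem_chart_source _ _⟩).1 hζ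
  · rintro ⟨N, Φ, hΦ, ζ, e, he, hζ⟩
    exact ⟨N, Φ, hΦ, ζ, (H885.surj_mfderiv_iff ((hΦ ζ).mdifferentiableAt (by simp)) he).2 hζ⟩

theorem dominated_of_dominable {n : ℕ} {X : Type} [TopologicalSpace X] [ChartedSpace (Cm n) X]
    [IsManifold 𝓘(ℂ, Cm n) ω X] {y : X} (h : Dominable n y) : Dominated n X := by
  obtain ⟨Φ, hΦ, -, hb⟩ := h
  exact ⟨n, Φ, hΦ, 0, hb.2⟩

/-- the final statement -/
def FinStmt : Prop :=
  ∀ (n : ℕ) (X : Type) [TopologicalSpace X] [T2Space X] [CompactSpace X]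
    [ConnectedSpace X] [ChartedSpace (Cm n) X] [IsManifold 𝓘(ℂ, Cm n) ω X], Embedded n X →
    (Dominated n X → ∀ x : X,
      (∀ (Q : Type) [Group Q] (f : FundamentalGroup X x →* Q), Function.Surjective f → Folner Q →
        VirtAbelianRank Q (2 * n)) ∧
      ((Folner (FundamentalGroup X x) ∨ SubexpGrowth (FundamentalGroup X x) ∨
        AECurveConnected n x ∨ AECurveSpanned n x) →
          VirtAbelianRank (FundamentalGroup X x) (2 * n))) ∧
    (NullSet n {y : X | ¬ Dominable n y} →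
      ∀ x : X, VirtAbelianRank (FundamentalGroup X x) (2 * n)) ∧
    (∀ (N : ℕ) (Φ : Cm N → X), Holo (n := n) Φ → NullSet n (range Φ)ᶜ →
      ∀ x : X, VirtAbelianRank (FundamentalGroup X x) (2 * n))

theorem fin_of (hM : ∀ N, H213.Q.MainPiQ fun n X _ _ => H174.GD.DomW N n X) : FinStmt := by
  intro n X _ _ _ _ _ _ hX
  have h0 : Dominated n X → ∀ x : X,
      (∀ (Q : Type) [Group Q] (f : FundamentalGroup X x →* Q), Function.Surjective f → Folner Q →
        VirtAbelianRank Q (2 * n)) ∧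
      ((Folner (FundamentalGroup X x) ∨ SubexpGrowth (FundamentalGroup X x) ∨
        AECurveConnected n x ∨ AECurveSpanned n x) →
          VirtAbelianRank (FundamentalGroup X x) (2 * n)) := by
    intro hD x
    obtain ⟨N, hN⟩ := dominated_iff.1 hD
    exact pi_of (hM N) hX hN x
  refine ⟨h0, fun h x => ?_, fun N Φ hΦ hs x => ?_⟩
  · have h1 : Dense {y : X | Dominable n y} := by
      have := dense_of_null h
      have h2 : {y : X | ¬ Dominable n y}ᶜ = {y : X | Dominable n y} := by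
        ext y; simp
      rwa [h2] at this
    obtain ⟨y, hy⟩ := h1.nonempty
    exact (h0 (dominated_of_dominable hy) x).2 (Or.inr (Or.inr (Or.inr (spanned_of_null h x))))
  · obtain ⟨ζ, hζ⟩ := exists_rank hΦ hs
    exact (h0 ⟨N, Φ, hΦ, ζ, hζ⟩ x).2 (Or.inr (Or.inr (Or.inl (ae_of_range hΦ hs x))))

end Vale.Agent.P284.H478
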