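import Vale.Agent.P300.Final.Defs
import Vale.Agent.P272.K.Stmt

/-!
# P284: projective manifolds dominated by complex vector spaces, definitions
-/

open scoped Manifold ContDiff LinearAlgebra.Projectivization

noncomputable section

namespace Vale.Agent.P284.H478

open Vale.Agent.P272.K

variable {N n : ℕ} {X : Type} [TopologicalSpace X] [ChartedSpace (Cm n) X]

/-- `Φ : ℂᴺ → X` is holomorphic. -/
def Holo (Φ : Cm N → X) : Prop :=
  ContMDiff 𝓘(ℂ, Cm N) 𝓘(ℂ, Cm n) ω Φ

/-- The differential of `Φ : ℂᴺ → X` at `ζ`. -/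
def diffAt (Φ : Cm N → X) (ζ : Cm N) : Cm N →L[ℂ] Cm n :=
  mfderiv 𝓘(ℂ, Cm N) 𝓘(ℂ, Cm n) Φ ζ

variable (n)

/-- There is a holomorphic map `Φ : ℂⁿ → X` with `Φ(0) = y` whose differential at `0` is bijective. -/
def Dominable (y : X) : Prop :=
  ∃ Φ : Cm n → X, Holo (n := n) Φ ∧ Φ 0 = y ∧ Function.Bijective (diffAt (n := n) Φ 0)

variable (X)

/-- Some injective holomorphic immersion of `X` into a projective space exists. -/
def Embedded : Prop :=
  ∃ (k : ℕ) (Ψ : X → ℙ ℂ (Fin (k + 1) → ℂ)), Function.Injective Ψ ∧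
    Vale.Agent.P300.Final.IsProjectiveImmersion (Cm n) Ψ

/-- `X` is dominated by a complex vector space: there is a holomorphic map `Φ : ℂᴺ → X`, for some `N`,
whose differential is surjective at one point. -/
def Dominated : Prop :=
  ∃ (N : ℕ) (Φ : Cm N → X), Holo (n := n) Φ ∧ ∃ ζ, Function.Surjective (diffAt (n := n) Φ ζ)

end Vale.Agent.P284.H478
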